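import Mathlib

/-!
# P249, second formulation: definitions used in the statement
-/

open MeasureTheory
open scoped ENNReal NNReal

namespace P249D

universe u

/-- The finite subset `X` of a metric space admits a map into `ℓ_p^d` (`PiLp p`: `ℝ^d` with the
norm `(∑ |y_k|^p)^{1/p}`) of distortion at most `D`: for some constants with `K * L ≤ D` the map is
`K`-Lipschitz and its inverse is `L`-Lipschitz.  The map is arbitrary. -/
def HasMap (p : ℝ≥0∞) [Fact (1 ≤ p)] (D : ℝ≥0) {M : Type u} [PseudoMetricSpace M] (X : Finset M)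
    (d : ℕ) : Prop :=
  ∃ (f : X → PiLp p fun _ : Fin d => ℝ) (K L : ℝ≥0),
    LipschitzWith K f ∧ AntilipschitzWith L f ∧ K * L ≤ D

/-- The dimensions `d` such that every `n`-point subset of every `L_p(μ)`, over any measure space,
admits a map into `ℓ_p^d` of distortion at most `D`.  The least of them is `d_p(n, D)`. -/
def GoodDims (p : ℝ≥0∞) [Fact (1 ≤ p)] (D : ℝ≥0) (n : ℕ) : Set ℕ :=
  {d | ∀ (Ω : Type u) [MeasurableSpace Ω] (μ : Measure Ω) (X : Finset (Lp ℝ p μ)),
    X.card = n → HasMap p D X d}

end P249D
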