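import Mathlib
import Vale.Agent.Lib.P249D.Defs
import Vale.Agent.Lib.P249.Defs

/-!
# P249: comparison of the two sets of definitions
-/

open MeasureTheory
open scoped ENNReal NNReal

namespace P249D

universe u

theorem norm_toLp {p : ℝ} (hp : 1 ≤ p) {d : ℕ} (y : Fin d → ℝ) :
    ‖(WithLp.toLp (ENNReal.ofReal p) y : PiLp (ENNReal.ofReal p) fun _ : Fin d => ℝ)‖ =
      Vale.Agent.P249.lpNorm p y := by
  have h0 : 0 < p := by linarith
  have h1 : (ENNReal.ofReal p).toReal = p := ENNReal.toReal_ofReal h0.le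
  rw [PiLp.norm_eq_sum (by rw [h1]; exact h0), h1]
  rfl

theorem hasMap_iff {p : ℝ} (hp : 1 ≤ p) [Fact (1 ≤ ENNReal.ofReal p)] {D : ℝ≥0}
    {Ω : Type u} [MeasurableSpace Ω] {μ : Measure Ω} (X : Finset (Lp ℝ (ENNReal.ofReal p) μ))
    (d : ℕ) : HasMap (ENNReal.ofReal p) D X d ↔ Vale.Agent.P249.EmbedsIn p X d D := by
  classical
  constructor
  · rintro ⟨f, K, L, hK, hL, hKL⟩
    have hsub : ∀ x y : X, Vale.Agent.P249.lpNorm p
        (WithLp.ofLp (f x) - WithLp.ofLp (f y)) = dist (f x) (f y) := by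
      intro x y
      rw [← norm_toLp hp, dist_eq_norm]
      rfl
    rcases eq_or_ne L 0 with rfl | hL0
    · refine ⟨0, 1, one_pos, fun x hx y hy => ?_⟩
      have h1 := hL.le_mul_dist ⟨x, hx⟩ ⟨y, hy⟩
      rw [NNReal.coe_zero, zero_mul] at h1
      have h2 : ‖x - y‖ = 0 := le_antisymm (by rw [← dist_eq_norm]; exact h1) (norm_nonneg _)
      have h3 : Vale.Agent.P249.lpNorm p ((0 : Lp ℝ (ENNReal.ofReal p) μ → Fin d → ℝ) x -
          (0 : Lp ℝ (ENNReal.ofReal p) μ → Fin d → ℝ) y) = 0 := by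
        rw [← norm_toLp hp, Pi.zero_apply, Pi.zero_apply, sub_zero]
        simp
      rw [h2, h3]
      simp
    · have hLpos : (0 : ℝ) < L := by exact_mod_cast pos_iff_ne_zero.2 hL0
      refine ⟨fun x => if hx : x ∈ X then WithLp.ofLp (f ⟨x, hx⟩) else 0, (L : ℝ)⁻¹,
        inv_pos.2 hLpos, fun x hx y hy => ?_⟩
      simp only [dif_pos hx, dif_pos hy]
      rw [hsub]
      have h1 := hL.le_mul_dist ⟨x, hx⟩ ⟨y, hy⟩
      have h2 := hK.dist_le_mul ⟨x, hx⟩ ⟨y, hy⟩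
      have h3 : dist (⟨x, hx⟩ : X) ⟨y, hy⟩ = ‖x - y‖ := by rw [← dist_eq_norm]; rfl
      rw [h3] at h1 h2
      constructor
      · rw [inv_mul_le_iff₀ hLpos]
        exact h1
      · refine h2.trans ?_
        refine mul_le_mul_of_nonneg_right ?_ (norm_nonneg _)
        rw [← div_eq_mul_inv, le_div_iff₀ hLpos]
        exact_mod_cast hKL
  · rintro ⟨f, s, hs, h⟩
    have hsub : ∀ x y : X, dist (WithLp.toLp (ENNReal.ofReal p) (f x) :
        PiLp (ENNReal.ofReal p) fun _ : Fin d => ℝ) (WithLp.toLp (ENNReal.ofReal p) (f y)) =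
        Vale.Agent.P249.lpNorm p (f x - f y) := by
      intro x y
      rw [← norm_toLp hp, dist_eq_norm]
      rfl
    obtain ⟨t, rfl⟩ : ∃ t : ℝ≥0, (t : ℝ) = s := ⟨⟨s, hs.le⟩, rfl⟩
    refine ⟨fun x => WithLp.toLp _ (f x), D * t, t⁻¹, ?_, ?_, ?_⟩
    · refine LipschitzWith.of_dist_le_mul fun x y => ?_
      have h3 : dist x y = ‖(x : Lp ℝ (ENNReal.ofReal p) μ) - y‖ := by rw [← dist_eq_norm]; rfl
      rw [hsub, h3]
      exact (h x x.2 y y.2).2
    · refine AntilipschitzWith.of_le_mul_dist fun x y => ?_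
      have h3 : dist x y = ‖(x : Lp ℝ (ENNReal.ofReal p) μ) - y‖ := by rw [← dist_eq_norm]; rfl
      rw [hsub, h3]
      have h4 := (h x x.2 y y.2).1
      rw [NNReal.coe_inv, le_inv_mul_iff₀ hs]
      exact h4
    · have hs' : t ≠ 0 := by
        rintro rfl
        exact lt_irrefl _ hs
      rw [mul_assoc, mul_inv_cancel₀ hs', mul_one]

theorem mem_goodDims_iff {p : ℝ} (hp : 1 ≤ p) [Fact (1 ≤ ENNReal.ofReal p)] {D : ℝ≥0} {n d : ℕ} :
    d ∈ GoodDims.{u} (ENNReal.ofReal p) D n ↔ Vale.Agent.P249.Admits.{u} p D n d :=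
  forall_congr' fun _ => forall_congr' fun _ => forall_congr' fun _ => forall_congr' fun X =>
    forall_congr' fun _ => hasMap_iff hp X d

end P249D
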